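import Mathlib

/-!
# P168: diluted spin glass models and the Mézard–Parisi functional (definitions)
-/

namespace Vale.Agent.P168

open MeasureTheory Filter Topology

/-- The spin `±1`. -/
def sg (s : Bool) : ℝ := if s then 1 else -1

/-- Data of a diluted model with `K`-spin interactions: a probability space `(Ω, P)` carrying
the random variables `a, b` and the random functions `f_1, …, f_K`, and the law `Q` of the
field `h`. -/
structure Model (K : ℕ) where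
  Ω : Type
  mΩ : MeasurableSpace Ω
  P : @Measure Ω mΩ
  a : Ω → ℝ
  b : Ω → ℝ
  f : Fin K → Ω → Bool → ℝ
  Q : Measure ℝ

namespace Model

variable {K : ℕ} (M : Model K)

instance : MeasurableSpace M.Ω := M.mΩ

/-- `θ`, where `e^θ = a (1 + b f_1(σ_1) ⋯ f_K(σ_K))`. -/
noncomputable def theta (ω : M.Ω) (σ : Fin K → Bool) : ℝ :=
  Real.log (M.a ω * (1 + M.b ω * ∏ j, M.f j ω (σ j)))

/-- The class of models: `a > 0`, `b ∈ (-1, 1)`, `f_j : {-1, 1} → [-1, 1]`,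
`E (-b)^n ≥ 0` for all `n ≥ 1`, `E |h| < ∞` and `E max_σ |θ(σ)| < ∞`. -/
structure InClass : Prop where
  probP : IsProbabilityMeasure M.P
  probQ : IsProbabilityMeasure M.Q
  meas_a : Measurable M.a
  meas_b : Measurable M.b
  meas_f : ∀ j s, Measurable fun ω => M.f j ω s
  a_pos : ∀ ω, 0 < M.a ω
  b_mem : ∀ ω, M.b ω ∈ Set.Ioo (-1 : ℝ) 1
  f_mem : ∀ j ω s, M.f j ω s ∈ Set.Icc (-1 : ℝ) 1
  positivity : ∀ n : ℕ, 1 ≤ n → 0 ≤ ∫ ω, (-M.b ω) ^ n ∂M.P
  int_h : Integrable (fun h : ℝ => |h|) M.Q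
  int_theta : Integrable (fun ω => ⨆ σ : Fin K → Bool, |M.theta ω σ|) M.P

/-- The Hamiltonian `H_N(σ)`, given the number `n` of interactions, their samples `ω`, their
indices `i` and the fields `h`. -/
noncomputable def energy {N n : ℕ} (ω : Fin n → M.Ω) (i : Fin n → Fin K → Fin N)
    (h : Fin N → ℝ) (σ : Fin N → Bool) : ℝ :=
  ∑ k, M.theta (ω k) (fun j => σ (i k j)) + ∑ v, h v * sg (σ v)

/-- The pressure `F_N = N⁻¹ E log ∑_σ e^{H_N(σ)}`; the number of interactions is Poisson of mean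
`λ N`, the indices are i.i.d. uniform. -/
noncomputable def pressure (lam : ℝ) (N : ℕ) : ℝ :=
  1 / N * ∑' n : ℕ, Real.exp (-(lam * N)) * (lam * N) ^ n / n.factorial *
    (1 / ((N : ℝ) ^ K) ^ n * ∑ i : Fin n → Fin K → Fin N,
      ∫ ω, ∫ h, Real.log (∑ σ : Fin N → Bool, Real.exp (M.energy ω i h σ))
        ∂(Measure.pi fun _ : Fin N => M.Q) ∂(Measure.pi fun _ : Fin n => M.P))

end Model

/-- Lebesgue measure on `[0, 1]`. -/
noncomputable def unif : Measure ℝ := volume.restrict (Set.Icc 0 1)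

/-- `Y_0` as a function of the level-`0` variables, from `Y = Y_r`, where
`Y_{p-1} = (E_p Y_p^{m_p})^{1/m_p}` for `p = r, …, 1`. The messages are indexed by `ι`; the
level-`p` variables form a point of `ι → ℝ`. -/
noncomputable def nest {ι : Type} [Fintype ι] (m : ℕ → ℝ) :
    (r : ℕ) → ((Fin (r + 1) → ι → ℝ) → ℝ) → (ι → ℝ) → ℝ
  | 0, Y => fun w => Y fun _ => w
  | r + 1, Y => nest m r fun w =>
      (∫ v : ι → ℝ, Y (Fin.snoc w v) ^ m (r + 1) ∂(Measure.pi fun _ => unif)) ^ (1 / m (r + 1))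

namespace Model

variable {K : ℕ} (M : Model K)

/-- `U`, given `p = π_1`, the samples of `θ`, the positions `ℓ`, the field `h` and the messages
`z`. -/
noncomputable def Uval {p : ℕ} (ω : Fin p → M.Ω) (l : Fin p → Fin K) (h : ℝ)
    (z : Fin p × Fin K → ℝ) : ℝ :=
  ∑ ε : Bool, Real.exp (h * sg ε) * ∏ k, ∑ σ : Fin K → Bool,
    if σ (l k) = ε then
      Real.exp (M.theta (ω k) σ) * ∏ j ∈ Finset.univ.erase (l k), (1 + z (k, j) * sg (σ j)) / 2
    else 0

/-- `V`, given `p = π_2`, the samples of `θ` and the messages `z`. -/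
noncomputable def Vval {p : ℕ} (ω : Fin p → M.Ω) (z : Fin p × Fin K → ℝ) : ℝ :=
  ∏ k, ∑ σ : Fin K → Bool, Real.exp (M.theta (ω k) σ) * ∏ j, (1 + z (k, j) * sg (σ j)) / 2

/-- `𝒯 U`: expectation over `π_1` (Poisson of mean `K λ`), the uniform positions, the samples of
`θ`, the field and the level-`0` variables. -/
noncomputable def TU (lam : ℝ) (r : ℕ) (m : ℕ → ℝ) (x : (Fin (r + 1) → ℝ) → ℝ) : ℝ :=
  ∑' p : ℕ, Real.exp (-(K * lam)) * (K * lam) ^ p / p.factorial *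
    (1 / (K : ℝ) ^ p * ∑ l : Fin p → Fin K, ∫ ω, ∫ h, ∫ w,
      Real.log (nest m r (fun w => M.Uval ω l h fun kj => x fun q => w q kj) w)
        ∂(Measure.pi fun _ : Fin p × Fin K => unif) ∂M.Q ∂(Measure.pi fun _ : Fin p => M.P))

/-- `𝒯 V`: the same with `π_2`, Poisson of mean `(K - 1) λ`. -/
noncomputable def TV (lam : ℝ) (r : ℕ) (m : ℕ → ℝ) (x : (Fin (r + 1) → ℝ) → ℝ) : ℝ :=
  ∑' p : ℕ, Real.exp (-((K - 1) * lam)) * ((K - 1) * lam) ^ p / p.factorial *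
    ∫ ω, ∫ w, Real.log (nest m r (fun w => M.Vval ω fun kj => x fun q => w q kj) w)
      ∂(Measure.pi fun _ : Fin p × Fin K => unif) ∂(Measure.pi fun _ : Fin p => M.P)

/-- `Φ_r`, the infimum of `𝒯 U - 𝒯 V` over `0 < m_1 < ⋯ < m_r < 1` and measurable `x` with values
in `[-1, 1]`. -/
noncomputable def Phi (lam : ℝ) (r : ℕ) : EReal :=
  ⨅ (m : ℕ → ℝ) (_ : ∀ q, 1 ≤ q → q ≤ r → 0 < m q ∧ m q < 1 ∧ (q < r → m q < m (q + 1)))
    (x : (Fin (r + 1) → ℝ) → ℝ) (_ : Measurable x ∧ ∀ y, x y ∈ Set.Icc (-1 : ℝ) 1),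
    ((M.TU lam r m x - M.TV lam r m x : ℝ) : EReal)

/-- The Mézard–Parisi formula: `lim F_N` exists and equals `inf_r Φ_r`. -/
def Formula (lam : ℝ) : Prop :=
  Tendsto (fun N : ℕ => ((M.pressure lam N : ℝ) : EReal)) atTop (𝓝 (⨅ r : ℕ, M.Phi lam r))

end Model

end Vale.Agent.P168
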