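import Vale.Agent.P168.Defs

/-!
# P168: the ferromagnet
-/

namespace Vale.Agent.P168

open MeasureTheory Filter Topology

theorem pi_dirac_zero (N : ℕ) :
    (Measure.pi fun _ : Fin N => Measure.dirac (0 : ℝ)) = Measure.dirac (fun _ => 0) := by
  rw [← Measure.infinitePi_eq_pi, Measure.infinitePi_dirac]

instance : IsProbabilityMeasure unif := by
  constructor
  simp [unif]

/-! ### Poisson sums -/

theorem pois_hasSum (μ : ℝ) :
    HasSum (fun n : ℕ => Real.exp (-μ) * μ ^ n / n.factorial) 1 := by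
  have h := (NormedSpace.expSeries_div_hasSum_exp (𝔸 := ℝ) μ).mul_left (Real.exp (-μ))
  rw [← Real.exp_eq_exp_ℝ, ← Real.exp_add, neg_add_cancel, Real.exp_zero] at h
  simpa only [mul_div_assoc] using h

theorem pois_hasSum_mul (μ : ℝ) :
    HasSum (fun n : ℕ => Real.exp (-μ) * μ ^ n / n.factorial * n) μ := by
  have h := (pois_hasSum μ).mul_left μ
  rw [mul_one] at h
  have e : (fun n : ℕ => Real.exp (-μ) * μ ^ (n + 1) / (n + 1).factorial *
      ((n + 1 : ℕ) : ℝ)) = fun n : ℕ => μ * (Real.exp (-μ) * μ ^ n / n.factorial) := by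
    funext n
    have h1 : ((n + 1 : ℕ) : ℝ) ≠ 0 := by positivity
    have h2 : (n.factorial : ℝ) ≠ 0 := by positivity
    rw [Nat.factorial_succ, Nat.cast_mul]
    field_simp
    ring
  have h2 : HasSum (fun n : ℕ => Real.exp (-μ) * μ ^ (n + 1) / (n + 1).factorial *
      ((n + 1 : ℕ) : ℝ)) μ := by
    rw [e]; exact h
  rw [← hasSum_nat_add_iff' 1]
  simpa using h2

theorem pois_hasSum_aff (μ c d : ℝ) :
    HasSum (fun n : ℕ => Real.exp (-μ) * μ ^ n / n.factorial * (c + n * d)) (c + μ * d) := by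
  have h := ((pois_hasSum μ).mul_right c).add ((pois_hasSum_mul μ).mul_right d)
  rw [one_mul] at h
  have e : (fun n : ℕ => Real.exp (-μ) * μ ^ n / n.factorial * (c + n * d)) =
      fun n : ℕ => Real.exp (-μ) * μ ^ n / n.factorial * c +
        Real.exp (-μ) * μ ^ n / n.factorial * n * d := by
    funext n; ring
  rw [e]
  exact h

/-! ### Spins -/

theorem sg_sq (s : Bool) : sg s * sg s = 1 := by
  cases s <;> simp [sg]

theorem sg_not (s : Bool) : sg (!s) = -sg s := by
  cases s <;> simp [sg]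

theorem prod_sg {ι : Type} [Fintype ι] (σ : ι → Bool) :
    (∏ j, sg (σ j)) = 1 ∨ (∏ j, sg (σ j)) = -1 := by
  have h : (∏ j, sg (σ j)) * (∏ j, sg (σ j)) = 1 := by
    rw [← Finset.prod_mul_distrib]
    simp [sg_sq]
  rcases mul_self_eq_one_iff.1 h with h | h
  · exact Or.inl h
  · exact Or.inr h

theorem prod_sg_le {ι : Type} [Fintype ι] (σ : ι → Bool) : (∏ j, sg (σ j)) ≤ 1 := by
  rcases prod_sg σ with h | h <;> rw [h]
  norm_num

/-- flip one spin -/
def flip {ι : Type} [DecidableEq ι] (j : ι) : Equiv.Perm (ι → Bool) where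
  toFun σ := Function.update σ j (!σ j)
  invFun σ := Function.update σ j (!σ j)
  left_inv σ := by
    funext k
    by_cases h : k = j
    · subst h; simp
    · simp [h]
  right_inv σ := by
    funext k
    by_cases h : k = j
    · subst h; simp
    · simp [h]

theorem flip_apply_self {ι : Type} [DecidableEq ι] (j : ι) (σ : ι → Bool) :
    flip j σ j = !σ j := by simp [flip]

theorem flip_apply_ne {ι : Type} [DecidableEq ι] (j k : ι) (h : k ≠ j) (σ : ι → Bool) :
    flip j σ k = σ k := by simp [flip, h]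

theorem prod_flip {ι : Type} [Fintype ι] [DecidableEq ι] (j : ι) (σ : ι → Bool) :
    (∏ k, sg (flip j σ k)) = -∏ k, sg (σ k) := by
  rw [← Finset.mul_prod_erase Finset.univ _ (Finset.mem_univ j),
    ← Finset.mul_prod_erase Finset.univ (fun k => sg (σ k)) (Finset.mem_univ j),
    flip_apply_self, sg_not, neg_mul]
  congr 2
  refine Finset.prod_congr rfl fun k hk => ?_
  rw [flip_apply_ne j k (Finset.ne_of_mem_erase hk)]

theorem exp_pair (β s : ℝ) (h : s = 1 ∨ s = -1) :
    Real.exp (β * s) + Real.exp (β * -s) = 2 * Real.cosh β := by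
  rw [Real.cosh_eq]
  rcases h with h | h <;> rw [h] <;> ring_nf

theorem count_half (K : ℕ) (l : Fin K) (ε : Bool) :
    ∑ σ : Fin K → Bool, (if σ l = ε then (1 : ℝ) else 0) * 2 = 2 ^ K := by
  have h1 : ∑ σ : Fin K → Bool, (if σ l = ε then (1 : ℝ) else 0) =
      ∑ σ : Fin K → Bool, (if σ l = ε then (0 : ℝ) else 1) := by
    rw [← Equiv.sum_comp (flip l)]
    refine Finset.sum_congr rfl fun σ _ => ?_
    rw [flip_apply_self]
    cases σ l <;> cases ε <;> simp
  have h2 : ∑ σ : Fin K → Bool, (if σ l = ε then (1 : ℝ) else 0) +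
      ∑ σ : Fin K → Bool, (if σ l = ε then (0 : ℝ) else 1) = 2 ^ K := by
    rw [← Finset.sum_add_distrib]
    have : ∀ σ : Fin K → Bool, (if σ l = ε then (1 : ℝ) else 0) +
        (if σ l = ε then (0 : ℝ) else 1) = 1 := by
      intro σ
      split_ifs <;> norm_num
    simp [this]
  rw [← Finset.sum_mul]
  linarith

theorem sum_pos (K : ℕ) (hK : 2 ≤ K) (β : ℝ) (l : Fin K) (ε : Bool) :
    ∑ σ : Fin K → Bool, (if σ l = ε then Real.exp (β * ∏ j, sg (σ j)) * (1 / 2) ^ (K - 1)
      else 0) = Real.cosh β := by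
  obtain ⟨j0, hj0⟩ : ∃ j0 : Fin K, j0 ≠ l := by
    by_cases h : l.1 = 0
    · exact ⟨⟨1, by omega⟩, fun hc => by rw [← hc] at h; simp at h⟩
    · exact ⟨⟨0, by omega⟩, fun hc => by rw [← hc] at h; simp at h⟩
  have h1 : ∑ σ : Fin K → Bool, (if σ l = ε then Real.exp (β * ∏ j, sg (σ j)) else 0) =
      ∑ σ : Fin K → Bool, (if σ l = ε then Real.exp (β * -∏ j, sg (σ j)) else 0) := by
    rw [← Equiv.sum_comp (flip j0)]
    refine Finset.sum_congr rfl fun σ _ => ?_
    rw [prod_flip, flip_apply_ne j0 l hj0.symm]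
  have h2 : ∑ σ : Fin K → Bool, (if σ l = ε then Real.exp (β * ∏ j, sg (σ j)) else 0) +
      ∑ σ : Fin K → Bool, (if σ l = ε then Real.exp (β * -∏ j, sg (σ j)) else 0) =
      2 ^ K * Real.cosh β := by
    rw [← count_half K l ε, ← Finset.sum_add_distrib, Finset.sum_mul]
    refine Finset.sum_congr rfl fun σ _ => ?_
    split_ifs
    · rw [exp_pair β _ (prod_sg σ)]; ring
    · simp
  have h3 : ∑ σ : Fin K → Bool, (if σ l = ε then Real.exp (β * ∏ j, sg (σ j)) *
      (1 / 2) ^ (K - 1) else 0) =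
      (∑ σ : Fin K → Bool, (if σ l = ε then Real.exp (β * ∏ j, sg (σ j)) else 0)) *
        (1 / 2) ^ (K - 1) := by
    rw [Finset.sum_mul]
    refine Finset.sum_congr rfl fun σ _ => ?_
    split_ifs <;> simp
  rw [h3]
  have h4 : ∑ σ : Fin K → Bool, (if σ l = ε then Real.exp (β * ∏ j, sg (σ j)) else 0) =
      2 ^ (K - 1) * Real.cosh β := by
    obtain ⟨k, rfl⟩ : ∃ k, K = k + 1 := ⟨K - 1, by omega⟩
    rw [pow_succ] at h2
    simp only [Nat.add_sub_cancel]
    linarith
  rw [h4, mul_right_comm, ← mul_pow]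
  norm_num

theorem sum_all (K : ℕ) (hK : 2 ≤ K) (β : ℝ) :
    ∑ σ : Fin K → Bool, Real.exp (β * ∏ j, sg (σ j)) * (1 / 2) ^ K = Real.cosh β := by
  have l : Fin K := ⟨0, by omega⟩
  have h1 := sum_pos K hK β l true
  have h2 := sum_pos K hK β l false
  have h3 : ∑ σ : Fin K → Bool, Real.exp (β * ∏ j, sg (σ j)) * (1 / 2) ^ K =
      1 / 2 * (∑ σ : Fin K → Bool, (if σ l = true then Real.exp (β * ∏ j, sg (σ j)) *
        (1 / 2) ^ (K - 1) else 0) +
      ∑ σ : Fin K → Bool, (if σ l = false then Real.exp (β * ∏ j, sg (σ j)) *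
        (1 / 2) ^ (K - 1) else 0)) := by
    rw [← Finset.sum_add_distrib, Finset.mul_sum]
    refine Finset.sum_congr rfl fun σ _ => ?_
    obtain ⟨k, rfl⟩ : ∃ k, K = k + 1 := ⟨K - 1, by omega⟩
    simp only [Nat.add_sub_cancel, pow_succ]
    cases σ l <;> simp <;> ring
  rw [h3, h1, h2]
  ring

/-! ### The pressure -/

variable {K : ℕ}

theorem pressure_ge (M : Model K) (β : ℝ) (hβ : 0 ≤ β) (hP : IsProbabilityMeasure M.P)
    (hQ : M.Q = Measure.dirac 0) (hθ : ∀ ω σ, M.theta ω σ = β * ∏ j, sg (σ j)) (lam : ℝ)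
    (hlam : 0 ≤ lam) (N : ℕ) (hN : 1 ≤ N) : lam * β ≤ M.pressure lam N := by
  have hN0 : (0 : ℝ) < N := by exact_mod_cast hN
  have hG : ∀ (n : ℕ) (i : Fin n → Fin K → Fin N),
      (∫ ω, ∫ h, Real.log (∑ σ : Fin N → Bool, Real.exp (M.energy ω i h σ))
        ∂(Measure.pi fun _ : Fin N => M.Q) ∂(Measure.pi fun _ : Fin n => M.P)) =
      Real.log (∑ σ : Fin N → Bool, Real.exp (∑ k, β * ∏ j, sg (σ (i k j)))) := by
    intro n i
    rw [hQ, pi_dirac_zero]
    simp only [integral_dirac, Model.energy, hθ, zero_mul, Finset.sum_const_zero, add_zero,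
      integral_const, probReal_univ, one_smul]
  have hlow : ∀ (n : ℕ) (i : Fin n → Fin K → Fin N), n * β ≤
      Real.log (∑ σ : Fin N → Bool, Real.exp (∑ k, β * ∏ j, sg (σ (i k j)))) := by
    intro n i
    rw [Real.le_log_iff_exp_le (Finset.sum_pos (fun _ _ => Real.exp_pos _) Finset.univ_nonempty)]
    have h := Finset.single_le_sum (s := Finset.univ)
      (f := fun σ : Fin N → Bool => Real.exp (∑ k, β * ∏ j, sg (σ (i k j))))
      (fun _ _ => (Real.exp_pos _).le) (Finset.mem_univ (fun _ => true))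
    refine le_trans (le_of_eq ?_) h
    simp [sg]
  have hup : ∀ (n : ℕ) (i : Fin n → Fin K → Fin N),
      Real.log (∑ σ : Fin N → Bool, Real.exp (∑ k, β * ∏ j, sg (σ (i k j)))) ≤
        N * Real.log 2 + n * β := by
    intro n i
    rw [Real.log_le_iff_le_exp (Finset.sum_pos (fun _ _ => Real.exp_pos _) Finset.univ_nonempty)]
    have h : ∀ σ ∈ (Finset.univ : Finset (Fin N → Bool)),
        Real.exp (∑ k, β * ∏ j, sg (σ (i k j))) ≤ Real.exp (n * β) := by
      intro σ _
      apply Real.exp_le_exp.2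
      calc ∑ k, β * ∏ j, sg (σ (i k j)) ≤ ∑ _k : Fin n, β := by
            refine Finset.sum_le_sum fun k _ => ?_
            have := prod_sg_le fun j => σ (i k j)
            nlinarith
        _ = n * β := by simp
    refine (Finset.sum_le_sum h).trans (le_of_eq ?_)
    rw [Finset.sum_const, Real.exp_add, nsmul_eq_mul, Finset.card_univ]
    congr 1
    rw [mul_comm (N : ℝ), Real.exp_mul, Real.exp_log (by norm_num)]
    simp
  -- averages over the indices
  have hcard : ∀ n : ℕ, (((Finset.univ : Finset (Fin n → Fin K → Fin N)).card : ℕ) : ℝ) =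
      ((N : ℝ) ^ K) ^ n := by
    intro n
    simp
  have hden : ∀ n : ℕ, 0 < ((N : ℝ) ^ K) ^ n := fun n => by positivity
  set c : ℕ → ℝ := fun n => 1 / ((N : ℝ) ^ K) ^ n * ∑ i : Fin n → Fin K → Fin N,
    Real.log (∑ σ : Fin N → Bool, Real.exp (∑ k, β * ∏ j, sg (σ (i k j)))) with hc
  have hc1 : ∀ n : ℕ, n * β ≤ c n := by
    intro n
    have h := Finset.sum_le_sum (s := (Finset.univ : Finset (Fin n → Fin K → Fin N)))
      fun i _ => hlow n i
    rw [Finset.sum_const, nsmul_eq_mul, hcard] at h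
    rw [hc]
    simp only
    rw [one_div, ← div_eq_inv_mul, le_div_iff₀ (hden n)]
    linarith
  have hc2 : ∀ n : ℕ, c n ≤ N * Real.log 2 + n * β := by
    intro n
    have h := Finset.sum_le_sum (s := (Finset.univ : Finset (Fin n → Fin K → Fin N)))
      fun i _ => hup n i
    rw [Finset.sum_const, nsmul_eq_mul, hcard] at h
    rw [hc]
    simp only
    rw [one_div, ← div_eq_inv_mul, div_le_iff₀ (hden n)]
    linarith
  have hw : ∀ n : ℕ, 0 ≤ Real.exp (-(lam * N)) * (lam * N) ^ n / n.factorial := by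
    intro n
    positivity
  have hA := pois_hasSum_aff (lam * N) 0 β
  have hB := pois_hasSum_aff (lam * N) (N * Real.log 2) β
  have hS : Summable fun n : ℕ => Real.exp (-(lam * N)) * (lam * N) ^ n / n.factorial * c n := by
    refine Summable.of_nonneg_of_le (fun n => mul_nonneg (hw n) ?_)
      (fun n => mul_le_mul_of_nonneg_left (hc2 n) (hw n)) hB.summable
    exact le_trans (by positivity) (hc1 n)
  have hmain : lam * N * β ≤
      ∑' n : ℕ, Real.exp (-(lam * N)) * (lam * N) ^ n / n.factorial * c n := by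
    have h := hA.summable.tsum_le_tsum (g := fun n : ℕ =>
      Real.exp (-(lam * N)) * (lam * N) ^ n / n.factorial * c n)
      (fun n => mul_le_mul_of_nonneg_left (by rw [zero_add]; exact hc1 n) (hw n)) hS
    rw [hA.tsum_eq, zero_add] at h
    exact h
  unfold Model.pressure
  simp only [hG]
  rw [one_div, ← div_eq_inv_mul, le_div_iff₀ hN0]
  calc lam * β * N = lam * N * β := by ring
    _ ≤ _ := hmain

/-! ### The functional at depth zero with `x = 0` -/

theorem Uval_zero (hK : 2 ≤ K) (M : Model K) (β : ℝ)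
    (hθ : ∀ ω σ, M.theta ω σ = β * ∏ j, sg (σ j)) {p : ℕ} (ω : Fin p → M.Ω)
    (l : Fin p → Fin K) : M.Uval ω l 0 (fun _ => 0) = 2 * Real.cosh β ^ p := by
  have h : ∀ (ε : Bool) (k : Fin p), (∑ σ : Fin K → Bool, if σ (l k) = ε then
      Real.exp (M.theta (ω k) σ) * ∏ j ∈ Finset.univ.erase (l k),
        (1 + (0 : ℝ) * sg (σ j)) / 2 else 0) = Real.cosh β := by
    intro ε k
    rw [← sum_pos K hK β (l k) ε]
    refine Finset.sum_congr rfl fun σ _ => ?_
    simp only [hθ, zero_mul, add_zero, Finset.prod_const, Finset.card_erase_of_mem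
      (Finset.mem_univ _), Finset.card_univ, Fintype.card_fin]
  have h2 : M.Uval ω l 0 (fun _ => 0) = ∑ ε : Bool, Real.exp (0 * sg ε) *
      ∏ _k : Fin p, Real.cosh β := by
    unfold Model.Uval
    refine Finset.sum_congr rfl fun ε _ => ?_
    congr 1
    exact Finset.prod_congr rfl fun k _ => h ε k
  rw [h2]
  simp only [zero_mul, Real.exp_zero, one_mul, Finset.prod_const, Finset.card_univ,
    Fintype.card_fin, Finset.sum_const, Fintype.card_bool, nsmul_eq_mul]
  norm_num

theorem Vval_zero (hK : 2 ≤ K) (M : Model K) (β : ℝ)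
    (hθ : ∀ ω σ, M.theta ω σ = β * ∏ j, sg (σ j)) {p : ℕ} (ω : Fin p → M.Ω) :
    M.Vval ω (fun _ => 0) = Real.cosh β ^ p := by
  have h : ∀ k : Fin p, (∑ σ : Fin K → Bool, Real.exp (M.theta (ω k) σ) *
      ∏ j : Fin K, (1 + (0 : ℝ) * sg (σ j)) / 2) = Real.cosh β := by
    intro k
    rw [← sum_all K hK β]
    refine Finset.sum_congr rfl fun σ _ => ?_
    simp only [hθ, zero_mul, add_zero, Finset.prod_const, Finset.card_univ, Fintype.card_fin]
  unfold Model.Vval
  simp only [h, Finset.prod_const, Finset.card_univ, Fintype.card_fin]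

theorem TU_zero (hK : 2 ≤ K) (M : Model K) (β : ℝ) (hP : IsProbabilityMeasure M.P)
    (hQ : M.Q = Measure.dirac 0) (hθ : ∀ ω σ, M.theta ω σ = β * ∏ j, sg (σ j))
    (lam : ℝ) (m : ℕ → ℝ) :
    M.TU lam 0 m (fun _ => 0) = Real.log 2 + K * lam * Real.log (Real.cosh β) := by
  have hK0 : (0 : ℝ) < K := by exact_mod_cast (by omega : 0 < K)
  have h : ∀ (p : ℕ) (l : Fin p → Fin K), (∫ ω, ∫ h, ∫ w,
      Real.log (nest m 0 (fun w => M.Uval ω l h fun kj : Fin p × Fin K =>
        (fun _ : Fin (0 + 1) → ℝ => (0 : ℝ)) fun q => w q kj) w)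
        ∂(Measure.pi fun _ : Fin p × Fin K => unif) ∂M.Q ∂(Measure.pi fun _ : Fin p => M.P)) =
      Real.log 2 + p * Real.log (Real.cosh β) := by
    intro p l
    rw [hQ]
    simp only [integral_dirac, nest, Uval_zero hK M β hθ, integral_const, probReal_univ,
      one_smul]
    rw [Real.log_mul (by norm_num) (by positivity), Real.log_pow]
  unfold Model.TU
  simp only [h, Finset.sum_const, Finset.card_univ, nsmul_eq_mul]
  rw [← (pois_hasSum_aff (K * lam) (Real.log 2) (Real.log (Real.cosh β))).tsum_eq]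
  refine tsum_congr fun p => ?_
  congr 1
  rw [← mul_assoc]
  have : (1 / (K : ℝ) ^ p * (Fintype.card (Fin p → Fin K) : ℝ)) = 1 := by
    simp [hK0.ne']
  rw [this, one_mul]

theorem TV_zero (hK : 2 ≤ K) (M : Model K) (β : ℝ) (hP : IsProbabilityMeasure M.P)
    (hθ : ∀ ω σ, M.theta ω σ = β * ∏ j, sg (σ j)) (lam : ℝ) (m : ℕ → ℝ) :
    M.TV lam 0 m (fun _ => 0) = (K - 1) * lam * Real.log (Real.cosh β) := by
  have h : ∀ p : ℕ, (∫ ω, ∫ w, Real.log (nest m 0 (fun w => M.Vval ω
      fun kj : Fin p × Fin K => (fun _ : Fin (0 + 1) → ℝ => (0 : ℝ)) fun q => w q kj) w)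
      ∂(Measure.pi fun _ : Fin p × Fin K => unif) ∂(Measure.pi fun _ : Fin p => M.P)) =
      0 + p * Real.log (Real.cosh β) := by
    intro p
    simp only [nest, Vval_zero hK M β hθ, integral_const, probReal_univ, one_smul]
    rw [Real.log_pow, zero_add]
  unfold Model.TV
  simp only [h]
  rw [(pois_hasSum_aff ((K - 1) * lam) 0 (Real.log (Real.cosh β))).tsum_eq, zero_add]

theorem Phi_le (hK : 2 ≤ K) (M : Model K) (β : ℝ) (hP : IsProbabilityMeasure M.P)
    (hQ : M.Q = Measure.dirac 0) (hθ : ∀ ω σ, M.theta ω σ = β * ∏ j, sg (σ j)) (lam : ℝ) :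
    M.Phi lam 0 ≤ ((Real.log 2 + lam * Real.log (Real.cosh β) : ℝ) : EReal) := by
  unfold Model.Phi
  refine iInf_le_of_le (fun _ => 1) ?_
  refine iInf_le_of_le (fun q h1 h2 => by omega) ?_
  refine iInf_le_of_le (fun _ => 0) ?_
  refine iInf_le_of_le ⟨measurable_const, fun _ => by norm_num⟩ ?_
  rw [TU_zero hK M β hP hQ hθ, TV_zero hK M β hP hθ]
  apply le_of_eq
  congr 1
  ring

/-- for `λ > 1` some `β` beats the replica symmetric value -/
theorem exists_beta (lam : ℝ) (hlam : 1 < lam) :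
    ∃ β : ℝ, 0 < β ∧ Real.log 2 + lam * Real.log (Real.cosh β) < lam * β := by
  have h1 : Tendsto (fun β : ℝ => (lam - 1) * Real.log 2 - lam * Real.log (1 + Real.exp (-(2 * β))))
      atTop (𝓝 ((lam - 1) * Real.log 2 - lam * Real.log (1 + 0))) := by
    refine Tendsto.sub tendsto_const_nhds (Tendsto.mul tendsto_const_nhds ?_)
    refine (Real.continuousAt_log (by norm_num)).tendsto.comp ?_
    refine Tendsto.add tendsto_const_nhds ?_
    refine Real.tendsto_exp_neg_atTop_nhds_zero.comp ?_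
    exact tendsto_id.const_mul_atTop (by norm_num)
  have h2 : 0 < (lam - 1) * Real.log 2 - lam * Real.log (1 + 0) := by
    have : 0 < Real.log 2 := Real.log_pos (by norm_num)
    rw [add_zero, Real.log_one]
    nlinarith
  obtain ⟨β, hβ1, hβ2⟩ := ((h1.eventually (lt_mem_nhds h2)).and (eventually_gt_atTop 0)).exists
  refine ⟨β, hβ2, ?_⟩
  have h3 : Real.log (Real.cosh β) = β - Real.log 2 + Real.log (1 + Real.exp (-(2 * β))) := by
    have : Real.cosh β = Real.exp β / 2 * (1 + Real.exp (-(2 * β))) := by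
      rw [Real.cosh_eq, mul_add, mul_one, div_mul_eq_mul_div, ← Real.exp_add]
      ring_nf
    rw [this, Real.log_mul (by positivity) (by positivity), Real.log_div (by positivity)
      (by norm_num), Real.log_exp]
  rw [h3]
  linarith

/-- the formula fails, with a gap -/
theorem fails (hK : 2 ≤ K) (M : Model K) (β : ℝ) (hβ : 0 ≤ β) (hP : IsProbabilityMeasure M.P)
    (hQ : M.Q = Measure.dirac 0) (hθ : ∀ ω σ, M.theta ω σ = β * ∏ j, sg (σ j)) (lam : ℝ)
    (hlam : 0 ≤ lam) (hlt : Real.log 2 + lam * Real.log (Real.cosh β) < lam * β) :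
    (∃ δ : ℝ, 0 < δ ∧ ∀ N : ℕ, 1 ≤ N →
      M.Phi lam 0 + (δ : EReal) ≤ ((M.pressure lam N : ℝ) : EReal)) ∧ ¬ M.Formula lam := by
  have hPhi := Phi_le hK M β hP hQ hθ lam
  refine ⟨⟨lam * β - (Real.log 2 + lam * Real.log (Real.cosh β)), by linarith,
    fun N hN => ?_⟩, fun h => ?_⟩
  · refine (add_le_add_left hPhi _).trans ?_
    rw [← EReal.coe_add, EReal.coe_le_coe_iff]
    have := pressure_ge M β hβ hP hQ hθ lam hlam N hN
    linarith
  · have h1 : (⨅ r : ℕ, M.Phi lam r) ≤
        ((Real.log 2 + lam * Real.log (Real.cosh β) : ℝ) : EReal) := iInf_le_of_le 0 hPhi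
    have h2 : ((lam * β : ℝ) : EReal) ≤ ⨅ r : ℕ, M.Phi lam r := by
      refine ge_of_tendsto h ?_
      filter_upwards [eventually_ge_atTop 1] with N hN
      rw [EReal.coe_le_coe_iff]
      exact pressure_ge M β hβ hP hQ hθ lam hlam N hN
    have h3 := h2.trans h1
    rw [EReal.coe_le_coe_iff] at h3
    linarith

end Vale.Agent.P168
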