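import Vale.Agent.P168.Proof

/-!
# P168: three representations of the ferromagnet inside the class
-/

namespace Vale.Agent.P168

open MeasureTheory Filter Topology ProbabilityTheory

theorem log_ferro (β s : ℝ) (h : s = 1 ∨ s = -1) :
    Real.log (Real.cosh β * (1 + Real.tanh β * s)) = β * s := by
  have hc : Real.cosh β ≠ 0 := (Real.cosh_pos β).ne'
  have e : Real.cosh β * (1 + Real.tanh β * s) = Real.exp (β * s) := by
    rw [Real.tanh_eq_sinh_div_cosh]
    rcases h with h | h <;> rw [h]
    · rw [mul_one, mul_one, mul_add, mul_one, mul_div_cancel₀ _ hc, Real.cosh_add_sinh]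
    · rw [mul_neg, mul_neg, mul_one, mul_one, mul_add, mul_one, mul_neg, mul_div_cancel₀ _ hc,
        ← sub_eq_add_neg, Real.cosh_sub_sinh]
  rw [e, Real.log_exp]

theorem tanh_mem (β : ℝ) : Real.tanh β ∈ Set.Ioo (-1 : ℝ) 1 :=
  ⟨Real.neg_one_lt_tanh β, Real.tanh_lt_one β⟩

theorem tanh_nn (β : ℝ) (h : 0 ≤ β) : 0 ≤ Real.tanh β := by
  rw [Real.tanh_eq_sinh_div_cosh]
  exact div_nonneg (Real.sinh_nonneg_iff.2 h) (Real.cosh_pos β).le

theorem sg_mem (s : Bool) : sg s ∈ Set.Icc (-1 : ℝ) 1 := by
  cases s <;> simp [sg]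

theorem neg_sg_mem (s : Bool) : -sg s ∈ Set.Icc (-1 : ℝ) 1 := by
  cases s <;> simp [sg]

theorem int_theta_aux {K : ℕ} (M : Model K) (β : ℝ) (hP : IsProbabilityMeasure M.P)
    (hθ : ∀ ω σ, M.theta ω σ = β * ∏ j, sg (σ j)) :
    Integrable (fun ω => ⨆ σ : Fin K → Bool, |M.theta ω σ|) M.P := by
  simp only [hθ]
  exact integrable_const _

theorem int_h_aux : Integrable (fun h : ℝ => |h|) (Measure.dirac (0 : ℝ)) :=
  integrable_dirac (by simp)

/-! ### nonrandom `a, b, f_j` -/

noncomputable def M1 (K : ℕ) (hK : 2 ≤ K) (β : ℝ) : Model K where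
  Ω := Unit
  mΩ := inferInstance
  P := Measure.dirac ()
  a := fun _ => Real.cosh β
  b := fun _ => -Real.tanh β
  f := fun j _ s => if j = ⟨0, by omega⟩ then -sg s else sg s
  Q := Measure.dirac 0

theorem prod_flip_one {K : ℕ} (i : Fin K) (σ : Fin K → Bool) :
    (∏ j, if j = i then -sg (σ j) else sg (σ j)) = -∏ j, sg (σ j) := by
  rw [← prod_flip i σ]
  refine Finset.prod_congr rfl fun j _ => ?_
  by_cases h : j = i
  · subst h
    rw [if_pos rfl, flip_apply_self, sg_not]
  · rw [if_neg h, flip_apply_ne i j h]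

theorem M1_theta (K : ℕ) (hK : 2 ≤ K) (β : ℝ) (ω : (M1 K hK β).Ω) (σ : Fin K → Bool) :
    (M1 K hK β).theta ω σ = β * ∏ j, sg (σ j) := by
  have h : (M1 K hK β).theta ω σ = Real.log (Real.cosh β * (1 + -Real.tanh β *
      ∏ j, if j = (⟨0, by omega⟩ : Fin K) then -sg (σ j) else sg (σ j))) := rfl
  rw [h, prod_flip_one, neg_mul_neg]
  exact log_ferro β _ (prod_sg σ)

theorem M1_class (K : ℕ) (hK : 2 ≤ K) (β : ℝ) (hβ : 0 < β) : (M1 K hK β).InClass where
  probP := by show IsProbabilityMeasure (Measure.dirac ()); infer_instance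
  probQ := by show IsProbabilityMeasure (Measure.dirac (0 : ℝ)); infer_instance
  meas_a := measurable_const
  meas_b := measurable_const
  meas_f := fun _ _ => measurable_const
  a_pos := fun _ => Real.cosh_pos β
  b_mem := fun _ => ⟨by have := (tanh_mem β).2; show -1 < -Real.tanh β; linarith,
    by have := (tanh_mem β).1; show -Real.tanh β < 1; linarith⟩
  f_mem := fun j _ s => by
    show (if j = _ then -sg s else sg s) ∈ _
    split_ifs
    · exact neg_sg_mem s
    · exact sg_mem s
  positivity := fun n _ => by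
    show 0 ≤ ∫ _ω : Unit, (- -Real.tanh β) ^ n ∂(Measure.dirac ())
    rw [neg_neg, integral_const, probReal_univ, one_smul]
    exact pow_nonneg (tanh_nn β hβ.le) n
  int_h := int_h_aux
  int_theta := int_theta_aux _ β (by show IsProbabilityMeasure (Measure.dirac ()); infer_instance)
    (M1_theta K hK β)

/-! ### i.i.d. `f_j` -/

/-- the uniform law on the two spin values -/
noncomputable def coin : Measure Bool := (PMF.uniformOfFintype Bool).toMeasure

instance : IsProbabilityMeasure coin := by unfold coin; infer_instance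

theorem integral_coin (g : Bool → ℝ) : ∫ s, g s ∂coin = (g true + g false) / 2 := by
  unfold coin
  rw [PMF.integral_eq_sum]
  simp [PMF.uniformOfFintype_apply]
  ring

noncomputable def M2 (K : ℕ) (β : ℝ) : Model K where
  Ω := Fin K → Bool
  mΩ := inferInstance
  P := Measure.pi fun _ => coin
  a := fun _ => Real.cosh β
  b := fun ω => Real.tanh β * ∏ j, sg (ω j)
  f := fun j ω s => sg (ω j) * sg s
  Q := Measure.dirac 0

theorem M2_theta (K : ℕ) (β : ℝ) (ω : (M2 K β).Ω) (σ : Fin K → Bool) :
    (M2 K β).theta ω σ = β * ∏ j, sg (σ j) := by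
  have h : (M2 K β).theta ω σ = Real.log (Real.cosh β * (1 + (Real.tanh β *
      ∏ j, sg ((ω : Fin K → Bool) j)) * ∏ j, sg ((ω : Fin K → Bool) j) * sg (σ j))) := rfl
  have h2 : (Real.tanh β * ∏ j, sg ((ω : Fin K → Bool) j)) *
      ∏ j, sg ((ω : Fin K → Bool) j) * sg (σ j) = Real.tanh β * ∏ j, sg (σ j) := by
    rw [mul_assoc, ← Finset.prod_mul_distrib]
    congr 1
    refine Finset.prod_congr rfl fun j _ => ?_
    rw [← mul_assoc, sg_sq, one_mul]
  rw [h, h2]
  exact log_ferro β _ (prod_sg σ)

theorem M2_class (K : ℕ) (hK : 2 ≤ K) (β : ℝ) (hβ : 0 < β) : (M2 K β).InClass where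
  probP := by show IsProbabilityMeasure (Measure.pi fun _ : Fin K => coin); infer_instance
  probQ := by show IsProbabilityMeasure (Measure.dirac (0 : ℝ)); infer_instance
  meas_a := measurable_const
  meas_b := by
    show Measurable fun ω : Fin K → Bool => Real.tanh β * ∏ j, sg (ω j)
    exact measurable_of_finite _
  meas_f := fun j s => by
    show Measurable fun ω : Fin K → Bool => sg (ω j) * sg s
    exact measurable_of_finite _
  a_pos := fun _ => Real.cosh_pos β
  b_mem := fun ω => by
    show Real.tanh β * ∏ j, sg ((ω : Fin K → Bool) j) ∈ _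
    rcases prod_sg (ω : Fin K → Bool) with h | h <;> rw [h]
    · rw [mul_one]; exact tanh_mem β
    · rw [mul_neg, mul_one]
      exact ⟨by have := (tanh_mem β).2; linarith, by have := (tanh_mem β).1; linarith⟩
  f_mem := fun j ω s => by
    show sg ((ω : Fin K → Bool) j) * sg s ∈ _
    cases h : (ω : Fin K → Bool) j <;> cases s <;> simp [sg]
  positivity := fun n _ => by
    show 0 ≤ ∫ ω : Fin K → Bool, (-(Real.tanh β * ∏ j, sg (ω j))) ^ n
      ∂(Measure.pi fun _ => coin)
    have e : (fun ω : Fin K → Bool => (-(Real.tanh β * ∏ j, sg (ω j))) ^ n) =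
        fun ω => (-Real.tanh β) ^ n * ∏ j, (fun s : Bool => sg s ^ n) (ω j) := by
      funext ω
      rw [← neg_mul, mul_pow, Finset.prod_pow]
    have e2 := integral_fintype_prod_eq_prod (μ := fun _ : Fin K => coin)
      (fun (_ : Fin K) (s : Bool) => sg s ^ n)
    rw [e, integral_const_mul, e2]
    rw [Finset.prod_const, Finset.card_univ, Fintype.card_fin, integral_coin]
    rcases Nat.even_or_odd n with hn | hn
    · refine mul_nonneg (hn.pow_nonneg _) (pow_nonneg ?_ _)
      have h1 := hn.pow_nonneg (sg true)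
      have h2 := hn.pow_nonneg (sg false)
      linarith
    · have : (sg true ^ n + sg false ^ n) / 2 = 0 := by
        simp [sg, hn.neg_one_pow]
      rw [this, zero_pow (by omega), mul_zero]
  int_h := int_h_aux
  int_theta := int_theta_aux _ β
    (by show IsProbabilityMeasure (Measure.pi fun _ : Fin K => coin); infer_instance)
    (M2_theta K β)

theorem M2_indep (K : ℕ) (β : ℝ) : iIndepFun (fun j => (M2 K β).f j) (M2 K β).P := by
  show iIndepFun (fun j (ω : Fin K → Bool) (s : Bool) => sg (ω j) * sg s)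
    (Measure.pi fun _ => coin)
  exact iIndepFun_pi (μ := fun _ : Fin K => coin)
    (X := fun _ (t : Bool) (s : Bool) => sg t * sg s)
    (fun _ => (measurable_of_finite _).aemeasurable)

theorem M2_ident (K : ℕ) (β : ℝ) (j j' : Fin K) :
    IdentDistrib ((M2 K β).f j) ((M2 K β).f j') (M2 K β).P (M2 K β).P := by
  show IdentDistrib (fun (ω : Fin K → Bool) (s : Bool) => sg (ω j) * sg s)
    (fun (ω : Fin K → Bool) (s : Bool) => sg (ω j') * sg s)
    (Measure.pi fun _ => coin) (Measure.pi fun _ => coin)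
  have h : IdentDistrib (fun ω : Fin K → Bool => ω j) (fun ω => ω j')
      (Measure.pi fun _ => coin) (Measure.pi fun _ => coin) := by
    refine ⟨(measurable_pi_apply j).aemeasurable, (measurable_pi_apply j').aemeasurable, ?_⟩
    rw [(measurePreserving_eval (fun _ : Fin K => coin) j).map_eq,
      (measurePreserving_eval (fun _ : Fin K => coin) j').map_eq]
  exact h.comp (u := fun (t : Bool) (s : Bool) => sg t * sg s) (measurable_of_finite _)

/-! ### exchangeable `f_j`, nonrandom `b` -/

noncomputable def unifFin (K : ℕ) (hK : 2 ≤ K) : Measure (Fin K) :=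
  haveI : Nonempty (Fin K) := ⟨⟨0, by omega⟩⟩
  (PMF.uniformOfFintype (Fin K)).toMeasure

theorem unifFin_prob (K : ℕ) (hK : 2 ≤ K) : IsProbabilityMeasure (unifFin K hK) := by
  unfold unifFin
  infer_instance

noncomputable def M3 (K : ℕ) (hK : 2 ≤ K) (β : ℝ) : Model K where
  Ω := Fin K
  mΩ := inferInstance
  P := unifFin K hK
  a := fun _ => Real.cosh β
  b := fun _ => -Real.tanh β
  f := fun j ω s => if j = ω then -sg s else sg s
  Q := Measure.dirac 0

theorem M3_theta' (K : ℕ) (hK : 2 ≤ K) (β : ℝ) (ω : Fin K) (σ : Fin K → Bool) :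
    (M3 K hK β).theta ω σ = β * ∏ j, sg (σ j) := by
  have h : (M3 K hK β).theta ω σ = Real.log (Real.cosh β * (1 + -Real.tanh β *
      ∏ j, if j = ω then -sg (σ j) else sg (σ j))) := rfl
  rw [h, prod_flip_one, neg_mul_neg]
  exact log_ferro β _ (prod_sg σ)

theorem M3_theta (K : ℕ) (hK : 2 ≤ K) (β : ℝ) (ω : (M3 K hK β).Ω) (σ : Fin K → Bool) :
    (M3 K hK β).theta ω σ = β * ∏ j, sg (σ j) := M3_theta' K hK β ω σ

theorem M3_f_mem (K : ℕ) (j ω : Fin K) (s : Bool) :
    (if j = ω then -sg s else sg s) ∈ Set.Icc (-1 : ℝ) 1 := by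
  split_ifs
  · exact neg_sg_mem s
  · exact sg_mem s

theorem M3_class (K : ℕ) (hK : 2 ≤ K) (β : ℝ) (hβ : 0 < β) : (M3 K hK β).InClass where
  probP := unifFin_prob K hK
  probQ := by show IsProbabilityMeasure (Measure.dirac (0 : ℝ)); infer_instance
  meas_a := measurable_const
  meas_b := measurable_const
  meas_f := fun j s => by
    show Measurable fun ω : Fin K => if j = ω then -sg s else sg s
    exact measurable_of_finite _
  a_pos := fun _ => Real.cosh_pos β
  b_mem := fun _ => ⟨by have := (tanh_mem β).2; show -1 < -Real.tanh β; linarith,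
    by have := (tanh_mem β).1; show -Real.tanh β < 1; linarith⟩
  f_mem := fun j ω s => M3_f_mem K j ω s
  positivity := fun n _ => by
    haveI := unifFin_prob K hK
    show 0 ≤ ∫ _ω : Fin K, (- -Real.tanh β) ^ n ∂(unifFin K hK)
    rw [neg_neg, integral_const, probReal_univ, one_smul]
    exact pow_nonneg (tanh_nn β hβ.le) n
  int_h := int_h_aux
  int_theta := int_theta_aux _ β (unifFin_prob K hK) (M3_theta K hK β)

theorem unifFin_map (K : ℕ) (hK : 2 ≤ K) (π : Equiv.Perm (Fin K)) :
    (unifFin K hK).map π = unifFin K hK := by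
  haveI : Nonempty (Fin K) := ⟨⟨0, by omega⟩⟩
  classical
  unfold unifFin
  ext s hs
  rw [Measure.map_apply (measurable_of_finite _) hs]
  rw [PMF.toMeasure_uniformOfFintype_apply _ (by measurability),
    PMF.toMeasure_uniformOfFintype_apply _ hs]
  congr 2
  exact Fintype.card_congr (Equiv.subtypeEquiv π fun a => Iff.rfl)

theorem M3_exch (K : ℕ) (hK : 2 ≤ K) (β : ℝ) (π : Equiv.Perm (Fin K)) :
    IdentDistrib (fun ω j => (M3 K hK β).f j ω) (fun ω j => (M3 K hK β).f (π j) ω)
      (M3 K hK β).P (M3 K hK β).P := by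
  show IdentDistrib (fun (ω : Fin K) (j : Fin K) (s : Bool) => if j = ω then -sg s else sg s)
    (fun (ω : Fin K) (j : Fin K) (s : Bool) => if π j = ω then -sg s else sg s)
    (unifFin K hK) (unifFin K hK)
  refine ⟨(measurable_of_finite _).aemeasurable, (measurable_of_finite _).aemeasurable, ?_⟩
  conv_lhs => rw [← unifFin_map K hK π.symm]
  rw [Measure.map_map (measurable_of_finite _) (measurable_of_finite _)]
  congr 1
  funext ω j s
  simp only [Function.comp_apply]
  congr 1
  simp [Equiv.eq_symm_apply]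

end Vale.Agent.P168
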